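import Vale.Agent.P154.Q4.Tree
import Vale.Agent.P154.End.Reg.All
import Vale.Agent.P154.End.Semi.SemiData.All

/-!
The reconstruction threshold of the three-state Potts channel and of the four-state ferromagnetic
one is the Kesten-Stigum threshold, on regular and on Poisson Galton-Watson trees.
-/

namespace Vale.Agent.Results.P154.KestenStigumThreshold

open Filter Topology Vale.Agent.P154

theorem result :
    (∀ lam : ℝ, -1 / 2 ≤ lam → lam ≤ 1 →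
      (∀ d : ℕ, 2 ≤ d →
        (Tendsto (aRegular 3 d lam) atTop (𝓝 0) ↔ (d : ℝ) * lam ^ 2 ≤ 1) ∧
        (1 < (d : ℝ) * lam ^ 2 → ∃ c > 0, ∀ n, c ≤ aRegular 3 d lam n)) ∧
      (∀ d : ℝ, 0 < d →
        (Tendsto (aPoisson 3 d lam) atTop (𝓝 0) ↔ d * lam ^ 2 ≤ 1) ∧
        (1 < d * lam ^ 2 → ∃ c > 0, ∀ n, c ≤ aPoisson 3 d lam n))) ∧
    (∀ lam : ℝ, 0 ≤ lam → lam ≤ 1 →
      (∀ d : ℕ, 2 ≤ d →
        (Tendsto (aRegular 4 d lam) atTop (𝓝 0) ↔ (d : ℝ) * lam ^ 2 ≤ 1) ∧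
        (1 < (d : ℝ) * lam ^ 2 → ∃ c > 0, ∀ n, c ≤ aRegular 4 d lam n)) ∧
      (∀ d : ℝ, 0 < d →
        (Tendsto (aPoisson 4 d lam) atTop (𝓝 0) ↔ d * lam ^ 2 ≤ 1) ∧
        (1 < d * lam ^ 2 → ∃ c > 0, ∀ n, c ≤ aPoisson 4 d lam n))) :=
  ⟨fun _ h0 h1 => ⟨fun _ hd => Q3.reg_iff_all hd h0 h1, fun _ hd => Q3.End.Semi.gw_iff_all hd h0 h1⟩,
    fun _ h0 h1 => ⟨fun _ hd => Q4.reg_iff hd h0 h1, fun _ hd => Q4.gw_iff hd h0 h1⟩⟩

end Vale.Agent.Results.P154.KestenStigumThreshold
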